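import Crest.Agent.R307.NP.QE

/-!
Row 307 (S0471), helper243: the polynomials of the flow step check, generic in the coefficient type.
`s, t, fs = √(1-s²), ft = √(1-t²), r = ρ`, `T = (s+t)/(fs+ft) = TU/TT`, `dd = TT² + TU²`.
-/

set_option autoImplicit false

namespace Crest.Agent.R307.NP

/-- data of a point -/
structure Pt (R : Type) where
  C : ℤ → R
  s : R
  t : R
  fs : R
  ft : R
  r : R
  TT : R
  TU : R
  dd : R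

/-- parameters of a leaf -/
structure Lf where
  ty : ℕ
  e : ℤ
  kp : ℤ
  km : ℤ
  hp : ℕ
  hm : ℕ
  tp : ℕ
  tm : ℕ
  n : ℤ
  a1 : ℤ
  a2 : ℤ

namespace Pt

variable {R : Type} [Add R] [Sub R] [Mul R] (b : Pt R)

def lm : R := b.C 1 + b.r
def mu : R := b.C 1 - b.r
def G : R := b.lm * b.s + b.mu * b.t
def GB : R := b.mu * b.s + b.lm * b.t
def D : R := b.s - b.t
def S2 : R := b.s + b.t
def Sig : R := b.C 1 - b.s * b.t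
def P : R := b.fs * b.ft
def Wg : R := b.C 4 - b.G * b.G
def LL : R := b.lm * b.fs + b.mu * b.ft
def HA : R := b.C 4 - b.G * b.S2
def WW : R := b.C 2 * (b.fs * b.fs + b.ft * b.ft) - b.G * b.Sig * b.S2
def M (n : ℤ) : R := b.C (2 * (65536 + n * n)) - b.C (65536 - n * n) * b.G
def K (n : ℤ) : R := b.C 200 * (b.C (256 * n) * (b.Wg * b.Sig) + b.M n * b.P)
def ML (n : ℤ) : R := b.M n + b.C (512 * n) * b.LL
def A1 (n e : ℤ) : R := b.K n - b.C (256 * n * e) * (b.mu * b.D * (b.C 2 * b.D + b.G * b.Sig))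
def B1 (n e : ℤ) : R := b.K n - b.C (256 * n * e) * (b.lm * b.D * (b.C 2 * b.D - b.G * b.Sig))
def E1 (n e : ℤ) : R :=
  b.K n - b.C (256 * n * e) * (b.lm * b.mu * (b.D * b.D) - b.s * b.t * b.Wg)
def a (n e : ℤ) : R := b.K n - b.C (256 * n * e) * (b.Wg * b.Sig)
def N0 (n e : ℤ) : R :=
  b.a n e * b.a n e - b.C (262144 * n * n * e * e) * (b.Wg * (b.P * b.P))
/-- the inequality `hii` -/
def pB (ca cb n e : ℤ) : R :=
  (b.C ca - b.C cb * b.r) * (b.HA * (b.C (2048 * n) * (b.dd * b.K n) +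
    b.C (1024 * n * e) * (b.TT * (b.ML n * (b.C 2 * (b.TT * (b.fs + b.ft)) - b.G * b.Sig * b.TU))))) +
  b.C 4096 * (b.TT * (b.TT * (b.ML n * (b.HA * (b.K n + b.C (512 * n * e) * b.WW) -
    b.C 12 * b.K n))))
/-- numerators of the end points -/
def hN : ℕ → R
  | 0 => b.C 2 * (b.r * b.D)
  | 1 => b.C 2 * (b.r * (b.lm * b.lm * (b.C 1 - b.s) + b.mu * b.mu * (b.C 1 + b.t)))
  | 5 => b.C 2 * (b.r * b.D)
  | 6 => b.C 2 * (b.r * (b.C 2 - b.D))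
  | _ => b.C 2 * b.r
/-- denominators of the end points -/
def hD : ℕ → R
  | 0 => b.HA
  | 1 => b.lm * b.mu * b.Wg + b.G * (b.r * (b.lm * b.lm * (b.C 1 - b.s) + b.mu * b.mu * (b.C 1 + b.t)))
  | 2 => b.C 2 * b.lm - b.G
  | 3 => b.C 2 * b.mu + b.G
  | 5 => b.C 4 - b.G * (b.S2 + b.C 2 * (b.r * b.D))
  | 6 => b.Wg - b.G * (b.r * (b.C 2 - b.D))
  | 7 => b.C 2 * b.lm + b.G
  | _ => b.C 2 * b.mu - b.G
/-- add or subtract -/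
def as (o : ℕ) (u v : R) : R := if Nat.blt o 5 then u - v else u + v
def pJ (n e kap : ℤ) (o : ℕ) : R :=
  b.C 100 * (b.N0 n e * (b.hD o * b.hD o)) -
    b.C (100 + kap) * ((b.K n * b.hN o) * (b.K n * b.hN o))
def pE (n e kap : ℤ) (o j : ℕ) : R :=
  if Nat.beq j 3 then
    b.C (16 * kap) * (b.A1 n e * b.B1 n e * (b.lm * as o
      ((b.mu * b.A1 n e + b.lm * b.B1 n e) * b.hD o) (b.K n * (b.GB * b.hN o)))) -
    b.C 100 * (b.E1 n e * b.E1 n e * b.K n * (as o (b.C 2 * b.hD o) (b.G * b.hN o) *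
      (b.C 4 * b.lm + b.r * b.r)))
  else
    b.C (4 * kap) * (b.A1 n e * b.B1 n e * (b.lm * b.mu * as o (b.B1 n e * b.hD o)
      (b.t * (b.K n * b.hN o)))) -
    b.C 100 * (b.E1 n e * b.E1 n e * b.K n * (as o (b.C 2 * b.hD o) (b.G * b.hN o) *
      ((b.C 1 + b.t) * (b.mu - b.t))))
/-- all conditions of a leaf of type 3 (NP) -/
def c3 (ca cb : ℤ) (l : Lf) : List R :=
  [b.pB ca cb l.n l.e,
   b.hD l.hp, b.pJ l.n l.e l.kp l.hp, b.pE l.n l.e l.kp l.hp l.tp,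
   b.hD l.hm, b.pJ l.n l.e l.km l.hm, b.pE l.n l.e l.km l.hm l.tm]
/-- `th = 2 NU / DN` for the dictator-type choice -/
def NU : R := b.mu * (b.lm * (b.fs * b.fs) + b.mu * (b.ft * b.ft)) +
  b.r * (b.lm * b.s * (b.C 1 - b.s) - b.mu * b.t * (b.C 1 + b.t))
def DN : R := b.mu * b.Wg + b.r * (b.G * (b.lm * (b.C 1 - b.s) - b.mu * (b.C 1 + b.t)))
def XC : R := b.Wg + b.C 4 * (b.lm * b.mu)
def pDB (ca2 cb2 : ℤ) : R :=
  b.C 2048 * (b.DN * (b.HA * (b.C 16 * (b.lm * b.mu * b.Wg) + b.Wg * b.XC))) -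
    b.C 4 * (b.XC * (b.NU * (b.HA * ((b.C ca2 - b.C cb2 * b.r) * b.LL +
      b.C 2048 * (b.lm * (b.fs * b.fs) + b.mu * (b.ft * b.ft)))) +
      b.C 6144 * (b.lm * b.mu * (b.D * (b.D * b.DN)))))
/-- all conditions of a leaf of type 1 (dictator) -/
def c1 (ca2 cb2 : ℤ) : List R :=
  [b.DN, b.s * b.DN - b.G * b.NU, b.G * b.NU - b.t * b.DN, b.pDB ca2 cb2]
/-- conditions of a leaf of type 2 (`k = 0`) -/
def pB2 (ca cb n a1 a2 : ℤ) : R :=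
  if n.toNat.beq 0 then
    (b.C ca - b.C cb * b.r) * (b.HA * (b.C 512 * b.dd)) +
      b.C 4096 * (b.TT * (b.TT * ((b.C a1 * b.fs + b.C a2 * b.ft + b.C 128 * b.LL) *
        (b.HA - b.C 12))))
  else
    (b.C ca - b.C cb * b.r) * (b.HA * (b.C (2048 * n) * b.dd)) +
      b.C 4096 * (b.TT * (b.TT * (b.ML n * (b.HA - b.C 12))))
def pm2 (n a1 a2 : ℤ) : R :=
  if n.toNat.beq 0 then
    b.C 4 * ((b.C a1 * b.fs + b.C a2 * b.ft) * (b.C a1 * b.fs + b.C a2 * b.ft)) -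
      b.C 65536 * b.Wg
  else b.C 0
def pJ2 (kap : ℤ) (o : ℕ) : R :=
  b.C 100 * (b.hD o * b.hD o) - b.C (100 + kap) * (b.hN o * b.hN o)
def pE2 (kap : ℤ) (o : ℕ) : R :=
  b.C (16 * kap) * (b.lm * as o (b.C 2 * b.hD o) (b.GB * b.hN o)) -
    b.C 100 * (as o (b.C 2 * b.hD o) (b.G * b.hN o) * (b.C 4 * b.lm + b.r * b.r))
def c2 (ca cb : ℤ) (l : Lf) : List R :=
  [b.pm2 l.n l.a1 l.a2, b.pB2 ca cb l.n l.a1 l.a2,
   b.hD l.hp, b.pJ2 l.kp l.hp, b.pE2 l.kp l.hp, b.hD l.hm, b.pJ2 l.km l.hm, b.pE2 l.km l.hm]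

end Pt

open Crest.Agent.KB

/-- the point in the chart with signs `ss, st` -/
def qpt (ch : ℕ) : Pt QE where
  C := QE.C
  s := if Nat.beq ch 3 then ⟨.sub (.X 0 2) (.W 0 2), 2, 0, 0, 1, 0⟩
    else ⟨.sub (.W 0 2) (.X 0 2), 2, 0, 0, 1, 0⟩
  t := if Nat.beq ch 1 then ⟨.sub (.W 1 2) (.X 1 2), 0, 2, 0, 0, 1⟩
    else ⟨.sub (.X 1 2) (.W 1 2), 0, 2, 0, 0, 1⟩
  fs := ⟨.mul (.c 2) (.X 0 1), 1, 0, 0, 1, 0⟩
  ft := ⟨.mul (.c 2) (.X 1 1), 0, 1, 0, 0, 1⟩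
  r := ⟨.X 2 1, 0, 0, 1, 0, 0⟩
  TT := if Nat.beq ch 2 then ⟨.add (.mul (.W 0 1) (.W 1 1)) (.mul (.X 0 1) (.X 1 1)), 1, 1, 0, 0, 0⟩
    else ⟨.add (.mul (.X 0 1) (.W 1 1)) (.mul (.W 0 1) (.X 1 1)), 1, 1, 0, 0, 0⟩
  TU := if Nat.beq ch 1 then ⟨.sub (.mul (.W 0 1) (.W 1 1)) (.mul (.X 0 1) (.X 1 1)), 1, 1, 0, 0, 0⟩
    else if Nat.beq ch 2 then
      ⟨.sub (.mul (.W 0 1) (.X 1 1)) (.mul (.X 0 1) (.W 1 1)), 1, 1, 0, 0, 0⟩
    else ⟨.sub (.mul (.X 0 1) (.X 1 1)) (.mul (.W 0 1) (.W 1 1)), 1, 1, 0, 0, 0⟩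
  dd := ⟨.mul (QE.dn 0) (QE.dn 1), 2, 2, 0, 0, 0⟩

end Crest.Agent.R307.NP
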