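import Crest.Agent.R307.NP.Hii
import Crest.Agent.R307.NP.Gen

/-!
Row 307 (S0471), flow route, helper472: the dictator leaf (type 1) of helper243's box tree, chart `s ≥ 0 ≥ t`.
-/

set_option autoImplicit false

namespace Crest.Agent.R307.NP

open Crest.Agent.R307.Flow Crest.Agent.R307.Elim

lemma ph_eq_of_sq {x f : ℝ} (pf : 0 < f) (hf : f ^ 2 = 1 - x ^ 2) : ph x = f := by
  unfold ph
  rw [← hf]
  exact Real.sqrt_sq pf.le

theorem pairStep_c1 {ρ s t fs ft TT TU c : ℝ} {ca2 cb2 : ℤ} (h0 : 0 < ρ) (h1 : ρ < 1)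
    (hs : |s| < 1) (ht : |t| < 1) (s0 : 0 ≤ s) (t0 : t ≤ 0) (hst : t < s) (pfs : 0 < fs)
    (pft : 0 < ft) (hfs : fs ^ 2 = 1 - s ^ 2) (hft : ft ^ 2 = 1 - t ^ 2) (hc : 0 < c)
    (hc2 : c ^ 2 = 1 - ρ ^ 2) (hcu : 4096 * c ≤ ca2 - cb2 * ρ)
    (H : ∀ q ∈ Pt.c1 (⟨fun n => (n : ℝ), s, t, fs, ft, ρ, TT, TU, TT ^ 2 + TU ^ 2⟩ : Pt ℝ)
      ca2 cb2, 0 ≤ q) :
    PairStep ρ s t (fun g => ρ ^ 2 / ph ρ + ρ ^ 2 / (3 * ph ρ ^ 2) * (ph g - ph ρ)) := by
  obtain ⟨s1, s2⟩ := abs_lt.1 hs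
  obtain ⟨t1, t2⟩ := abs_lt.1 ht
  have q1 := H _ (List.mem_cons_self)
  have q2 := H _ (List.mem_cons_of_mem _ List.mem_cons_self)
  have q3 := H _ (List.mem_cons_of_mem _ (List.mem_cons_of_mem _ List.mem_cons_self))
  have q4 := H _ (List.mem_cons_of_mem _ (List.mem_cons_of_mem _
    (List.mem_cons_of_mem _ List.mem_cons_self)))
  clear H
  simp only [Pt.pDB, Pt.DN, Pt.NU, Pt.XC, Pt.LL, Pt.HA, Pt.Wg, Pt.D, Pt.S2, Pt.G, Pt.lm, Pt.mu]
    at q1 q2 q3 q4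
  push_cast at q1 q2 q3 q4
  obtain ⟨g, hg⟩ : ∃ g, g = (1 + ρ) / 2 * s + (1 - ρ) / 2 * t := ⟨_, rfl⟩
  obtain ⟨DN, hDN⟩ : ∃ DN, DN = (1 - ρ) * (4 - ((1 + ρ) * s + (1 - ρ) * t) *
    ((1 + ρ) * s + (1 - ρ) * t)) + ρ * (((1 + ρ) * s + (1 - ρ) * t) *
      ((1 + ρ) * (1 - s) - (1 - ρ) * (1 + t))) := ⟨_, rfl⟩
  obtain ⟨NU, hNU⟩ : ∃ NU, NU = (1 - ρ) * ((1 + ρ) * (fs * fs) + (1 - ρ) * (ft * ft)) +
    ρ * ((1 + ρ) * s * (1 - s) - (1 - ρ) * t * (1 + t)) := ⟨_, rfl⟩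
  rw [← hDN] at q1 q2 q3 q4
  rw [← hNU] at q2 q3 q4
  have hG : (1 + ρ) * s + (1 - ρ) * t = 2 * g := by rw [hg]; ring
  rw [hG] at q2 q3 q4
  have hDN' : DN = (1 - ρ) * (4 * (1 - g ^ 2)) + ρ * (2 * g *
      ((1 + ρ) * (1 - s) - (1 - ρ) * (1 + t))) := by
    rw [hDN, hG]; ring
  have r1 : 0 < 1 - ρ := by linarith
  have r2 : 0 < 1 + ρ := by linarith
  have pNU : 0 < NU := by
    have a1 : 0 < (1 - ρ) * ((1 + ρ) * (fs * fs) + (1 - ρ) * (ft * ft)) := by positivity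
    have a2 : 0 ≤ (1 + ρ) * s * (1 - s) := mul_nonneg (mul_nonneg r2.le s0) (by linarith)
    have a3 : 0 ≤ (1 - ρ) * (-t) * (1 + t) :=
      mul_nonneg (mul_nonneg r1.le (by linarith)) (by linarith)
    have a4 : 0 ≤ ρ * ((1 + ρ) * s * (1 - s) - (1 - ρ) * t * (1 + t)) :=
      mul_nonneg h0.le (by linarith)
    rw [hNU]; linarith
  have pDN : 0 < DN := by
    rcases q1.eq_or_lt with h | h
    · exfalso
      rw [← h] at q2 q3
      have h3 : 2 * g * NU = 0 := le_antisymm (by linarith) (by linarith)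
      have h4 : g = 0 := by
        rcases mul_eq_zero.1 h3 with h5 | h5
        · linarith
        · exact absurd h5 pNU.ne'
      rw [h4] at hDN'
      have : DN = 4 * (1 - ρ) := by rw [hDN']; ring
      linarith
    · exact h
  have hg1 : |g| < 1 := by
    rw [hg]
    exact abs_conv_lt (by linarith) (by linarith) (by ring) hs ht
  obtain ⟨g1, g2⟩ := abs_lt.1 hg1
  have hwg : 0 < 1 - g ^ 2 := one_sub_sq_pos hg1
  have pf : 0 < ph g := ph_pos hg1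
  have hf : ph g ^ 2 = 1 - g ^ 2 := ph_sq hg1.le
  have hphρ : ph ρ = c := ph_eq_of_sq hc hc2
  have hphs : ph s = fs := ph_eq_of_sq pfs hfs
  have hpht : ph t = ft := ph_eq_of_sq pft hft
  have hthg : 2 * NU / DN * g = (2 * g * NU) / DN := by ring
  have k2 : 2 * NU / DN * g ≤ s := by
    rw [hthg, div_le_iff₀ pDN]; linarith
  have k3 : t ≤ 2 * NU / DN * g := by
    rw [hthg, le_div_iff₀ pDN]; linarith
  have kth : 0 < 2 * NU / DN := by positivity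
  have hgst : 0 < 1 - g * (s + t) / 2 := by
    have e : |g * ((s + t) / 2)| < 1 := by
      rw [abs_mul]
      have h3 : |(s + t) / 2| < 1 := by rw [abs_lt]; constructor <;> linarith
      calc |g| * |(s + t) / 2| ≤ 1 * |(s + t) / 2| :=
            mul_le_mul_of_nonneg_right hg1.le (abs_nonneg _)
        _ < 1 := by linarith
    have := (abs_lt.1 e).2
    linarith
  refine pairStep_dict (th := 2 * NU / DN) h0 h1 hs.le ht.le kth (by rw [← hg]; exact pf)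
    (by rw [← hg]; exact k2) (by rw [← hg]; exact k3) ?_ ?_
  · rw [← hg]
    have e1 : 2 * NU / DN * DN = 2 * NU := div_mul_cancel₀ _ pDN.ne'
    have e2 : (1 - ρ) * (2 * NU / DN * (1 - g ^ 2) - (1 + ρ) / 2 * (1 - s ^ 2) -
        (1 - ρ) / 2 * (1 - t ^ 2)) - ρ * ((1 + ρ) / 2 * (s - 2 * NU / DN * g) * (1 - s) +
        (1 - ρ) / 2 * (2 * NU / DN * g - t) * (1 + t)) = 1 / 4 * (2 * NU / DN * DN) - NU / 2 := by
      rw [hDN', hNU]
      have e3 : fs * fs = 1 - s ^ 2 := by rw [← hfs]; ring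
      have e4 : ft * ft = 1 - t ^ 2 := by rw [← hft]; ring
      rw [e3, e4]
      ring
    rw [e1] at e2
    linarith
  · have key : (1 + ρ) / 2 * (2 * NU / DN) * (2 * c * fs + fs ^ 2) +
        (1 - ρ) / 2 * (2 * NU / DN) * (2 * c * ft + ft ^ 2) +
        3 * ((1 + ρ) / 2 * ((1 - ρ) / 2) * (s - t) ^ 2) / (1 - g * (s + t) / 2) ≤
        2 * c * ph g + ph g ^ 2 := by
      have hcc : (1 + ρ) * (1 - ρ) = c ^ 2 := by rw [hc2]; ring
      rw [hcc] at q4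
      obtain ⟨w, hw⟩ : ∃ w, w = 1 - g ^ 2 := ⟨_, rfl⟩
      obtain ⟨HA, hHA⟩ : ∃ HA, HA = 4 - 2 * g * (s + t) := ⟨_, rfl⟩
      obtain ⟨LL, hLL⟩ : ∃ LL, LL = (1 + ρ) * fs + (1 - ρ) * ft := ⟨_, rfl⟩
      obtain ⟨MM, hMM⟩ : ∃ MM, MM = (1 + ρ) * (fs * fs) + (1 - ρ) * (ft * ft) := ⟨_, rfl⟩
      have hW : 4 - 2 * g * (2 * g) = 4 * w := by rw [hw]; ring
      rw [← hHA, ← hLL, ← hMM, hW] at q4
      have pw : 0 < w := by rw [hw]; exact hwg
      have pHA : 0 < HA := by rw [hHA]; linarith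
      have pLL : 0 < LL := by rw [hLL]; positivity
      have pX : 0 < w + c ^ 2 := by positivity
      have m1 : 0 ≤ (w + c ^ 2) * NU * HA * (LL * ((ca2 - cb2 * ρ) - 4096 * c)) :=
        mul_nonneg (by positivity) (mul_nonneg pLL.le (by linarith))
      have e5 : (w + c ^ 2) * (NU * HA * (2 * c * LL + MM) + 3 * c ^ 2 * (s - t) ^ 2 * DN) ≤
          DN * HA * (4 * c ^ 2 * w + w * (w + c ^ 2)) := by
        linarith
      have e6 : 4 * c ^ 2 * w / (w + c ^ 2) ≤ 2 * c * ph g := by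
        rw [div_le_iff₀ pX]
        have e7 : 2 * c * ph g ≤ w + c ^ 2 := by
          have : 0 ≤ (ph g - c) ^ 2 := sq_nonneg _
          rw [hw, ← hf]; linarith
        have e8 := mul_le_mul_of_nonneg_left e7 (show 0 ≤ 2 * c * ph g by positivity)
        have e9 : 2 * c * ph g * (2 * c * ph g) = 4 * c ^ 2 * w := by
          rw [hw, ← hf]; ring
        rw [e9] at e8
        exact e8
      have e10 : NU / DN * (2 * c * LL + MM) + 3 * c ^ 2 * (s - t) ^ 2 / HA ≤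
          4 * c ^ 2 * w / (w + c ^ 2) + w := by
        have e11 : NU / DN * (2 * c * LL + MM) + 3 * c ^ 2 * (s - t) ^ 2 / HA =
            (NU * HA * (2 * c * LL + MM) + 3 * c ^ 2 * (s - t) ^ 2 * DN) / (DN * HA) := by
          field_simp
        have e12 : 4 * c ^ 2 * w / (w + c ^ 2) + w =
            (4 * c ^ 2 * w + w * (w + c ^ 2)) / (w + c ^ 2) := by
          field_simp
        rw [e11, e12, div_le_div_iff₀ (by positivity) pX]
        linarith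
      have e13 : 3 * ((1 + ρ) / 2 * ((1 - ρ) / 2) * (s - t) ^ 2) / (1 - g * (s + t) / 2) =
          3 * c ^ 2 * (s - t) ^ 2 / HA := by
        have e14 : HA = 4 * (1 - g * (s + t) / 2) := by rw [hHA]; ring
        rw [e14, ← hcc]
        field_simp
        ring
      have e15 : (1 + ρ) / 2 * (2 * NU / DN) * (2 * c * fs + fs ^ 2) +
          (1 - ρ) / 2 * (2 * NU / DN) * (2 * c * ft + ft ^ 2) =
          NU / DN * (2 * c * LL + MM) := by
        rw [hLL, hMM]; ring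
      rw [e15, e13, hf, ← hw]
      linarith
    have := hii_conv (f := ph g) hc rfl rfl hc2 hg rfl key
    rw [← hg, hphs, hpht, hphρ]
    exact this

end Crest.Agent.R307.NP
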