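import Crest.Agent.R307.ElimNP

/-!
Row 307 (S0471), flow route (helper243): the K-inequality from end point conditions, separately for the two
end points; positivity of the slopes is automatic.
-/

set_option autoImplicit false

namespace Crest.Agent.R307.NP

open Crest.Agent.R307.Flow Crest.Agent.R307.Elim Crest.Agent.R307.ElimNP


lemma one_sub_mul_pos {g h : ℝ} (hg : |g| < 1) (h0 : 0 ≤ h) (h1 : h ≤ 1) : 0 < 1 - g * h := by
  obtain ⟨g1, g2⟩ := abs_lt.1 hg
  rcases le_total 0 g with h2 | h2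
  · have := mul_le_mul_of_nonneg_left h1 h2
    linarith
  · have := mul_nonneg (neg_nonneg.2 h2) h0
    linarith

lemma one_sub_mul_pos' {g h : ℝ} (hg : |g| < 1) (h0 : 0 ≤ h) (h1 : h ≤ 1) :
    0 < 1 - g * -h := by
  have := one_sub_mul_pos (g := -g) (by rwa [abs_neg]) h0 h1
  have e : 1 - g * -h = 1 - -g * h := by ring
  rwa [e]

lemma lt_one_of_sq {H n : ℝ} (h : H ^ 2 < n) (hn : n ≤ 1) : H < 1 := by
  by_contra hc
  push Not at hc
  nlinarith

lemma sq_one_sub_le {x : ℝ} (h0 : 0 ≤ x) (h1 : x ≤ 1) : (1 - x) ^ 2 ≤ 1 := by nlinarith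

lemma one_sub_mul_pos2 {s t : ℝ} (hs : |s| < 1) (ht : |t| < 1) : 0 < 1 - s * t := by
  have h : |s * t| < 1 := by
    rw [abs_mul]
    calc |s| * |t| ≤ 1 * |t| := mul_le_mul_of_nonneg_right hs.le (abs_nonneg t)
      _ < 1 := by linarith
  linarith [(abs_lt.1 h).2]

lemma sq_le_sq_n {h H n : ℝ} (h0 : 0 ≤ h) (h1 : h ≤ H) (h2 : H ^ 2 < n) : 0 < n - h ^ 2 := by
  have := pow_le_pow_left₀ h0 h1 2
  linarith

/-- one side of the (NP) condition from the end point `H` -/
lemma np_side {g s t mu lam al be U V eps kap n0 h H : ℝ} (hg : |g| < 1) (hlam : 0 < lam)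
    (hmu : 0 < mu) (hal : 0 < al) (hbe : 0 < be) (hU : 0 ≤ U) (hV : 0 ≤ V)
    (hkap : 0 ≤ kap) (hn1 : n0 ≤ 1) (hH : 0 < H) (h0 : 0 ≤ h) (hh : h ≤ H)
    (pp : 0 < al - s * H) (pq : 0 < be - t * H) (j : (1 + kap) * H ^ 2 ≤ n0)
    (e : eps ^ 2 * (1 - g * H) ≤
      4 * kap * al * be * (mu * (al - s * H) * U + lam * (be - t * H) * V)) :
    eps ^ 2 * h ^ 2 * (1 - g * h) ≤
      4 * al * be * (n0 - h ^ 2) * (mu * (al - s * h) * U + lam * (be - t * h) * V) := by
  obtain ⟨g1, g2⟩ := abs_lt.1 hg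
  have hkH := mul_nonneg hkap (sq_nonneg H)
  have hH1 : H ≤ 1 := by
    have h1 : H ^ 2 ≤ 1 := by linarith
    by_contra hc
    push Not at hc
    have := mul_lt_mul_of_pos_left hc hH
    have e : H ^ 2 = H * H := by ring
    linarith
  have h1 : h ≤ 1 := hh.trans hH1
  have hn0 : 0 ≤ n0 := le_trans (by positivity) j
  have hgH : 0 < 1 - g * H := one_sub_mul_pos hg hH.le hH1
  have hgh : 0 < 1 - g * h := one_sub_mul_pos hg h0 h1
  set F := mu * (al - s * H) * U + lam * (be - t * H) * V with hF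
  set f := mu * (al - s * h) * U + lam * (be - t * h) * V with hf
  have hF0 : 0 ≤ F := by positivity
  have hnH : 0 ≤ n0 - H ^ 2 := by linarith
  have hhH : h ^ 2 ≤ H ^ 2 := pow_le_pow_left₀ h0 hh 2
  -- (i)
  have i1 : h * F ≤ H * f := by
    have : H * f - h * F = (H - h) * (mu * al * U + lam * be * V) := by rw [hF, hf]; ring
    have h2 : 0 ≤ (H - h) * (mu * al * U + lam * be * V) := by
      have : 0 ≤ H - h := by linarith
      positivity
    linarith
  have hf0 : 0 ≤ H * f := le_trans (by positivity) i1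
  -- (ii)
  have i2 : h * (1 - g * h) * (n0 - H ^ 2) ≤ H * (1 - g * H) * (n0 - h ^ 2) := by
    have e1 : H * (1 - g * H) * (n0 - h ^ 2) - h * (1 - g * h) * (n0 - H ^ 2) =
        (H - h) * (n0 + H * h - g * n0 * (H + h)) := by ring
    have e2 : 0 ≤ n0 + H * h - g * n0 * (H + h) := by
      have e3 : g * n0 * (H + h) ≤ n0 * (H + h) := by
        have := mul_nonneg (mul_nonneg (show 0 ≤ 1 - g by linarith) hn0)
          (show 0 ≤ H + h by linarith)
        linarith
      have e4 : n0 * (H * h) ≤ H * h := by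
        have := mul_nonneg (show 0 ≤ 1 - n0 by linarith) (mul_nonneg hH.le h0)
        linarith
      have e5 : 0 ≤ n0 * ((1 - H) * (1 - h)) :=
        mul_nonneg hn0 (mul_nonneg (by linarith) (by linarith))
      linarith
    have := mul_nonneg (show 0 ≤ H - h by linarith) e2
    linarith
  have i3 : (h * (1 - g * h) * (n0 - H ^ 2)) * (h * F) ≤
      (H * (1 - g * H) * (n0 - h ^ 2)) * (H * f) :=
    mul_le_mul i2 i1 (by positivity) (le_trans (by positivity) i2)
  have i4 : eps ^ 2 * (1 - g * H) * H ^ 2 ≤ 4 * al * be * F * (n0 - H ^ 2) := by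
    have a1 := mul_le_mul_of_nonneg_right e (sq_nonneg H)
    have a2 : 4 * al * be * F * (kap * H ^ 2) ≤ 4 * al * be * F * (n0 - H ^ 2) :=
      mul_le_mul_of_nonneg_left (by linarith) (by positivity)
    calc eps ^ 2 * (1 - g * H) * H ^ 2 ≤ 4 * kap * al * be * F * H ^ 2 := a1
      _ = 4 * al * be * F * (kap * H ^ 2) := by ring
      _ ≤ _ := a2
  have i5 : (eps ^ 2 * h ^ 2 * (1 - g * h)) * ((1 - g * H) * H ^ 2) ≤
      (4 * al * be * (n0 - h ^ 2) * f) * ((1 - g * H) * H ^ 2) := by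
    calc (eps ^ 2 * h ^ 2 * (1 - g * h)) * ((1 - g * H) * H ^ 2)
        = (eps ^ 2 * (1 - g * H) * H ^ 2) * (h ^ 2 * (1 - g * h)) := by ring
      _ ≤ (4 * al * be * F * (n0 - H ^ 2)) * (h ^ 2 * (1 - g * h)) :=
          mul_le_mul_of_nonneg_right i4 (by positivity)
      _ = 4 * al * be * ((h * (1 - g * h) * (n0 - H ^ 2)) * (h * F)) := by ring
      _ ≤ 4 * al * be * ((H * (1 - g * H) * (n0 - h ^ 2)) * (H * f)) :=
          mul_le_mul_of_nonneg_left i3 (by positivity)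
      _ = _ := by ring
  exact le_of_mul_le_mul_right i5 (by positivity)

/-- positivity of two affine functions along a segment -/
lemma two_affine {p0 p1 q0 q1 H : ℝ} (hp : 0 < p0) (hq : 0 < q0) (hH : 0 ≤ H)
    (k1 : ∀ h, 0 ≤ h → h ≤ H → p0 - p1 * h = 0 → 0 ≤ q0 - q1 * h → False)
    (k2 : ∀ h, 0 ≤ h → h ≤ H → q0 - q1 * h = 0 → 0 ≤ p0 - p1 * h → False) :
    0 < p0 - p1 * H ∧ 0 < q0 - q1 * H := by
  -- the root of `p`
  have rp : p0 - p1 * H ≤ 0 → ∃ h, 0 ≤ h ∧ h ≤ H ∧ p0 - p1 * h = 0 ∧ ∀ x, 0 ≤ x → x ≤ h →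
      0 ≤ p0 - p1 * x := by
    intro hc
    have hp1 : 0 < p1 := by
      by_contra h
      push Not at h
      have := mul_nonneg (neg_nonneg.2 h) hH
      linarith
    have e1 : p1 * (p0 / p1) = p0 := by field_simp
    refine ⟨p0 / p1, by positivity, ?_, by linarith, ?_⟩
    · rw [div_le_iff₀ hp1]; linarith
    · intro x _ hx
      have := mul_le_mul_of_nonneg_left hx hp1.le
      linarith
  have rq : q0 - q1 * H ≤ 0 → ∃ h, 0 ≤ h ∧ h ≤ H ∧ q0 - q1 * h = 0 ∧ ∀ x, 0 ≤ x → x ≤ h →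
      0 ≤ q0 - q1 * x := by
    intro hc
    have hp1 : 0 < q1 := by
      by_contra h
      push Not at h
      have := mul_nonneg (neg_nonneg.2 h) hH
      linarith
    have e1 : q1 * (q0 / q1) = q0 := by field_simp
    refine ⟨q0 / q1, by positivity, ?_, by linarith, ?_⟩
    · rw [div_le_iff₀ hp1]; linarith
    · intro x _ hx
      have := mul_le_mul_of_nonneg_left hx hp1.le
      linarith
  have aff : ∀ {u v x y : ℝ}, 0 < u → 0 < u - v * y → 0 ≤ x → x ≤ y → 0 ≤ u - v * x := by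
    intro u v x y h1 h2 h3 h4
    rcases le_total 0 v with hv | hv
    · have := mul_le_mul_of_nonneg_left h4 hv
      linarith
    · have := mul_nonneg (neg_nonneg.2 hv) h3
      linarith
  by_contra hcon
  rw [not_and_or, not_lt, not_lt] at hcon
  rcases le_or_gt (p0 - p1 * H) 0 with h1 | h1
  · obtain ⟨x, x1, x2, x3, x4⟩ := rp h1
    rcases le_or_gt (q0 - q1 * H) 0 with h2 | h2
    · obtain ⟨y, y1, y2, y3, y4⟩ := rq h2
      rcases le_total x y with h3 | h3
      · exact k1 x x1 x2 x3 (y4 x x1 h3)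
      · exact k2 y y1 y2 y3 (x4 y y1 h3)
    · exact k1 x x1 x2 x3 (aff hq h2 x1 x2)
  · rcases hcon with h2 | h2
    · linarith
    · obtain ⟨y, y1, y2, y3, y4⟩ := rq h2
      exact k2 y y1 y2 y3 (aff hp h1 y1 y2)

/-- the K-inequality from end point conditions -/
theorem K_np2 {ρ s t k lam mu g d al be n0 eps kap1 kap2 U1 V1 U2 V2 H1 H2 f P : ℝ}
    (h0 : 0 < ρ) (h1 : ρ < 1) (hs : |s| < 1) (ht : |t| < 1) (hd0 : 0 < d)
    (hlamd : lam = (1 + ρ) / 2) (hmud : mu = (1 - ρ) / 2) (hgd : g = lam * s + mu * t)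
    (hdd : d = s - t)
    (hald : al = 1 - k * mu * d / 2 * (d + g * (1 - s * t)))
    (hbed : be = 1 - k * lam * d / 2 * (d - g * (1 - s * t)))
    (hn0 : n0 = (1 - k * (1 - g ^ 2) * (1 - s * t) / 2) ^ 2 -
      k ^ 2 / 4 * (1 - g ^ 2) * (1 - s ^ 2) * (1 - t ^ 2))
    (heps : eps = 1 - k / 2 * (lam * mu * d ^ 2 - s * t * (1 - g ^ 2)))
    (hf : 0 ≤ f) (hf2 : f ^ 2 = 1 - g ^ 2) (hP : 0 ≤ P)
    (hP2 : P ^ 2 = (1 - s ^ 2) * (1 - t ^ 2))
    (hk0 : 0 ≤ k) (hk : k * ((1 - g ^ 2) * (1 - s * t) + f * P) < 2)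
    (hU2 : 0 ≤ U2) (hV2 : 0 ≤ V2) (hU1 : 0 ≤ U1) (hV1 : 0 ≤ V1)
    (hUs2 : ∀ x, FX ρ s x → U2 * (1 - s ^ 2 + s * x) ≤ 1)
    (hVt2 : ∀ y, FX ρ t y → V2 * (1 - t ^ 2 + t * y) ≤ 1)
    (hUs1 : ∀ x, FX ρ s x → U1 * (1 - s ^ 2 + s * x) ≤ 1)
    (hVt1 : ∀ y, FX ρ t y → V1 * (1 - t ^ 2 + t * y) ≤ 1)
    (hkap2 : 0 < kap2) (hkap1 : 0 < kap1) (hH2 : 0 < H2) (hH1 : 0 < H1)
    (r2 : ∀ x y, FX ρ s x → FX ρ t y → |lam * x + mu * y| ≤ ρ * |d| / 2 →
      lam * x + mu * y ≤ H2 * (1 - g ^ 2 + g * (lam * x + mu * y)))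
    (r1 : ∀ x y, FX ρ s x → FX ρ t y → |lam * x + mu * y| ≤ ρ * |d| / 2 →
      -(lam * x + mu * y) ≤ H1 * (1 - g ^ 2 + g * (lam * x + mu * y)))
    (j2 : (1 + kap2) * H2 ^ 2 ≤ n0) (j1 : (1 + kap1) * H1 ^ 2 ≤ n0)
    (e2 : eps ^ 2 * (1 - g * H2) ≤
      4 * kap2 * al * be * (mu * (al - s * H2) * U2 + lam * (be - t * H2) * V2))
    (e1 : eps ^ 2 * (1 + g * H1) ≤
      4 * kap1 * al * be * (mu * (al + s * H1) * U1 + lam * (be + t * H1) * V1)) :
    0 < al ∧ 0 < be ∧
    ∀ x y, FX ρ s x → FX ρ t y → |lam * x + mu * y| ≤ ρ * |d| / 2 →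
      (lam * x + mu * y) ^ 2 / (1 - g ^ 2 + g * (lam * x + mu * y)) ≤
      lam * al * (x ^ 2 / (1 - s ^ 2 + s * x)) + mu * be * (y ^ 2 / (1 - t ^ 2 + t * y)) := by
  have hlam : 0 < lam := by rw [hlamd]; linarith
  have hmu : 0 < mu := by rw [hmud]; linarith
  have hsum : lam + mu = 1 := by rw [hlamd, hmud]; ring
  have hg : |g| < 1 := by
    rw [hgd]; exact abs_conv_lt hlam hmu hsum hs ht
  obtain ⟨g1, g2⟩ := abs_lt.1 hg
  have hwg : 0 < 1 - g ^ 2 := one_sub_sq_pos hg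
  have hws : 0 < 1 - s ^ 2 := one_sub_sq_pos hs
  have hwt : 0 < 1 - t ^ 2 := one_sub_sq_pos ht
  have hSig : 0 < 1 - s * t := one_sub_mul_pos2 hs ht
  have hz : 0 < lam * mu * d ^ 2 := by positivity
  -- `n₀(k') > 0`
  have hnk : ∀ k', 0 ≤ k' → k' ≤ k → 0 < (1 - k' * (1 - g ^ 2) * (1 - s * t) / 2) ^ 2 -
      k' ^ 2 / 4 * (1 - g ^ 2) * (1 - s ^ 2) * (1 - t ^ 2) := by
    intro k' q0 q1
    have e0 : (1 - k' * (1 - g ^ 2) * (1 - s * t) / 2) ^ 2 -
      k' ^ 2 / 4 * (1 - g ^ 2) * (1 - s ^ 2) * (1 - t ^ 2) =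
      (1 - k' * ((1 - g ^ 2) * (1 - s * t) + f * P) / 2) *
        (1 - k' * ((1 - g ^ 2) * (1 - s * t) + f * P) / 2 + k' * (f * P)) := by
      have : k' ^ 2 / 4 * (1 - g ^ 2) * (1 - s ^ 2) * (1 - t ^ 2) = k' ^ 2 / 4 * f ^ 2 * P ^ 2 := by
        rw [hf2, hP2]; ring
      rw [this]; ring
    have e3 : 0 < 1 - k' * ((1 - g ^ 2) * (1 - s * t) + f * P) / 2 := by
      have h3 : 0 ≤ (1 - g ^ 2) * (1 - s * t) + f * P := by positivity
      have := mul_le_mul_of_nonneg_right q1 h3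
      linarith
    rw [e0]
    have e4 : 0 ≤ k' * (f * P) := by positivity
    exact mul_pos e3 (by linarith)
  have hn0p : 0 < n0 := by rw [hn0]; exact hnk k hk0 le_rfl
  have hn01 : n0 ≤ 1 := by
    have e3 : k * (1 - g ^ 2) * (1 - s * t) / 2 ≤ 1 := by
      have : 0 ≤ k * (f * P) := by positivity
      linarith
    have e4 : 0 ≤ k * (1 - g ^ 2) * (1 - s * t) / 2 := by positivity
    have e5 : (1 - k * (1 - g ^ 2) * (1 - s * t) / 2) ^ 2 ≤ 1 := sq_one_sub_le e4 e3
    have e6 : 0 ≤ k ^ 2 / 4 * (1 - g ^ 2) * (1 - s ^ 2) * (1 - t ^ 2) := by positivity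
    rw [hn0]; linarith
  -- `al, be > 0`
  have hab : 0 < al ∧ 0 < be := by
    have key := fun k' => balanced_N (lam := lam) (mu := mu) (s := s) (t := t) (k := k') (H := 0)
      hsum
    have := two_affine (p0 := 1) (q0 := 1) (p1 := mu * d / 2 * (d + g * (1 - s * t)))
      (q1 := lam * d / 2 * (d - g * (1 - s * t))) (H := k) one_pos one_pos hk0 ?_ ?_
    · constructor
      · rw [hald]
        have h3 := this.1
        have e : 1 - mu * d / 2 * (d + g * (1 - s * t)) * k =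
          1 - k * mu * d / 2 * (d + g * (1 - s * t)) := by ring
        rwa [e] at h3
      · rw [hbed]
        have h3 := this.2
        have e : 1 - lam * d / 2 * (d - g * (1 - s * t)) * k =
          1 - k * lam * d / 2 * (d - g * (1 - s * t)) := by ring
        rwa [e] at h3
    · intro k' q0 q1 q2 q3
      have h3 := key k'
      rw [← hgd, ← hdd] at h3
      have e3 : 1 - k' * mu * d / 2 * (d + g * (1 - s * t)) = 0 := by rw [← q2]; ring
      have e4 : 1 - k' * lam * d / 2 * (d - g * (1 - s * t)) =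
        1 - lam * d / 2 * (d - g * (1 - s * t)) * k' := by ring
      rw [e3, e4] at h3
      have h4 := hnk k' q0 q1
      have h5 := mul_pos hz h4
      have h6 : 0 ≤ lam * (1 - s ^ 2) * (1 - lam * d / 2 * (d - g * (1 - s * t)) * k') := by
        positivity
      linarith
    · intro k' q0 q1 q2 q3
      have h3 := key k'
      rw [← hgd, ← hdd] at h3
      have e3 : 1 - k' * lam * d / 2 * (d - g * (1 - s * t)) = 0 := by rw [← q2]; ring
      have e4 : 1 - k' * mu * d / 2 * (d + g * (1 - s * t)) =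
        1 - mu * d / 2 * (d + g * (1 - s * t)) * k' := by ring
      rw [e3, e4] at h3
      have h4 := hnk k' q0 q1
      have h5 := mul_pos hz h4
      have h6 : 0 ≤ mu * (1 - t ^ 2) * (1 - mu * d / 2 * (d + g * (1 - s * t)) * k') := by
        positivity
      linarith
  obtain ⟨hal, hbe⟩ := hab
  refine ⟨hal, hbe, ?_⟩
  have hNn : ∀ h, (1 - g ^ 2) * ((al - s * h) * (be - t * h)) -
      (1 - g * h) * (lam * (1 - s ^ 2) * (be - t * h) + mu * (1 - t ^ 2) * (al - s * h)) =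
      lam * mu * d ^ 2 * (n0 - h ^ 2) := by
    intro h
    have hNn := balanced_N (lam := lam) (mu := mu) (s := s) (t := t) (k := k) (H := h) hsum
    rw [← hgd, ← hdd] at hNn
    rw [← hald, ← hbed, ← hn0] at hNn
    exact hNn
  have he := balanced_e (lam := lam) (mu := mu) (s := s) (t := t) (k := k) hsum
  rw [← hgd, ← hdd] at he
  rw [← hald, ← hbed, ← heps] at he
  have hH21 : H2 ^ 2 < n0 := by
    have : 0 < kap2 * H2 ^ 2 := by positivity
    linarith
  have hH11 : H1 ^ 2 < n0 := by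
    have : 0 < kap1 * H1 ^ 2 := by positivity
    linarith
  have hH2l : H2 < 1 := lt_one_of_sq hH21 hn01
  have hH1l : H1 < 1 := lt_one_of_sq hH11 hn01
  -- positivity at the end points
  have pos2 : 0 < al - s * H2 ∧ 0 < be - t * H2 := by
    refine two_affine hal hbe hH2.le ?_ ?_
    · intro h q0 q1 q2 q3
      have h3 := hNn h
      rw [q2] at h3
      have h4 : 0 < n0 - h ^ 2 := sq_le_sq_n q0 q1 hH21
      have h5 := mul_pos hz h4
      have h7 : 0 < 1 - g * h := one_sub_mul_pos hg q0 (q1.trans hH2l.le)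
      have h6 : 0 ≤ (1 - g * h) * (lam * (1 - s ^ 2) * (be - t * h)) := by positivity
      linarith
    · intro h q0 q1 q2 q3
      have h3 := hNn h
      rw [q2] at h3
      have h4 : 0 < n0 - h ^ 2 := sq_le_sq_n q0 q1 hH21
      have h5 := mul_pos hz h4
      have h7 : 0 < 1 - g * h := one_sub_mul_pos hg q0 (q1.trans hH2l.le)
      have h6 : 0 ≤ (1 - g * h) * (mu * (1 - t ^ 2) * (al - s * h)) := by positivity
      linarith
  have pos1 : 0 < al + s * H1 ∧ 0 < be + t * H1 := by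
    have := two_affine (p1 := -s) (q1 := -t) hal hbe hH1.le ?_ ?_
    · constructor
      · linarith [this.1]
      · linarith [this.2]
    · intro h q0 q1 q2 q3
      have h3 := hNn (-h)
      have q2' : al - s * -h = 0 := by linarith
      have q3' : be - t * -h = be - -t * h := by ring
      rw [q2', q3'] at h3
      have h4 : 0 < n0 - (-h) ^ 2 := by rw [neg_sq]; exact sq_le_sq_n q0 q1 hH11
      have h5 := mul_pos hz h4
      have h7 : 0 < 1 - g * -h := one_sub_mul_pos' hg q0 (q1.trans hH1l.le)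
      have h6 : 0 ≤ (1 - g * -h) * (lam * (1 - s ^ 2) * (be - -t * h)) := by positivity
      linarith
    · intro h q0 q1 q2 q3
      have h3 := hNn (-h)
      have q2' : be - t * -h = 0 := by linarith
      have q3' : al - s * -h = al - -s * h := by ring
      rw [q2', q3'] at h3
      have h4 : 0 < n0 - (-h) ^ 2 := by rw [neg_sq]; exact sq_le_sq_n q0 q1 hH11
      have h5 := mul_pos hz h4
      have h7 : 0 < 1 - g * -h := one_sub_mul_pos' hg q0 (q1.trans hH1l.le)
      have h6 : 0 ≤ (1 - g * -h) * (mu * (1 - t ^ 2) * (al - -s * h)) := by positivity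
      linarith
  intro x y hx hy hxy
  have pDs := D_pos h0 h1 hs hx.2.1 hx.2.2.2
  have pDt := D_pos h0 h1 ht hy.2.1 hy.2.2.2
  have hxg := FX.avg hx hy hlam.le hmu.le hsum
  rw [← hgd] at hxg
  have pDg := D_pos h0 h1 hg hxg.2.1 hxg.2.2.2
  have hr2 := r2 x y hx hy hxy
  have hr1 := r1 x y hx hy hxy
  set Dg := 1 - g ^ 2 + g * (lam * x + mu * y) with hDg
  set h := (lam * x + mu * y) / Dg with hh
  have hhD : h * Dg = lam * x + mu * y := by rw [hh]; field_simp
  have b2 : h ≤ H2 := by rw [hh, div_le_iff₀ pDg]; exact hr2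
  have b1 : -H1 ≤ h := by
    rw [hh, le_div_iff₀ pDg]; linarith
  clear_value h
  clear hh hr1 hr2 r1 r2
  have pp : 0 < al - s * h := by
    have := affine_pos (u := al) (v := -s) b1 b2 (by linarith [pos1.1]) (by linarith [pos2.1])
    linarith
  have pq : 0 < be - t * h := by
    have := affine_pos (u := be) (v := -t) b1 b2 (by linarith [pos1.2]) (by linarith [pos2.2])
    linarith
  have pg : 0 < 1 - g * h := by
    have e : Dg * (1 - g * h) = 1 - g ^ 2 := by
      have : Dg * (1 - g * h) = Dg - g * (h * Dg) := by ring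
      rw [this, hhD]; ring
    by_contra hcon
    push Not at hcon
    have := mul_nonpos_of_nonneg_of_nonpos pDg.le hcon
    linarith
  have hn : 0 ≤ n0 - h ^ 2 := by
    rcases le_total 0 h with hh0 | hh0
    · have := pow_le_pow_left₀ hh0 b2 2
      linarith
    · have := pow_le_pow_left₀ (show 0 ≤ -h by linarith) (show -h ≤ H1 by linarith) 2
      rw [neg_sq] at this
      linarith
  refine np_point (n := n0 - h ^ 2) (h := h) (eps := eps) hlam hmu hal hbe hgd hdd rfl rfl hDg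
    pDs pDt pDg hhD pp pq pg hd0.ne' (hNn h) he ?_
  have fin : ∀ U V : ℝ, U * (1 - s ^ 2 + s * x) ≤ 1 → V * (1 - t ^ 2 + t * y) ≤ 1 →
      eps ^ 2 * h ^ 2 * (1 - g * h) ≤
        4 * al * be * (n0 - h ^ 2) * (mu * (al - s * h) * U + lam * (be - t * h) * V) →
      eps ^ 2 * h ^ 2 * (1 - g * h) ≤ 4 * al * be * (n0 - h ^ 2) *
        (mu * (al - s * h) / (1 - s ^ 2 + s * x) + lam * (be - t * h) / (1 - t ^ 2 + t * y)) := by
    intro U V hU hV hle
    refine hle.trans (mul_le_mul_of_nonneg_left (add_le_add ?_ ?_) (by positivity))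
    · rw [le_div_iff₀ pDs]
      have := mul_le_mul_of_nonneg_left hU (show 0 ≤ mu * (al - s * h) by positivity)
      linarith
    · rw [le_div_iff₀ pDt]
      have := mul_le_mul_of_nonneg_left hV (show 0 ≤ lam * (be - t * h) by positivity)
      linarith
  rcases le_total 0 h with hh0 | hh0
  · exact fin U2 V2 (hUs2 x hx) (hVt2 y hy)
      (np_side hg hlam hmu hal hbe hU2 hV2 hkap2.le hn01 hH2 hh0 b2 pos2.1 pos2.2 j2 e2)
  · have := np_side (g := -g) (s := -s) (t := -t) (h := -h) (H := H1) (eps := eps)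
      (by rwa [abs_neg]) hlam hmu hal hbe hU1 hV1 hkap1.le hn01 hH1 (by linarith) (by linarith)
      (by linarith [pos1.1]) (by linarith [pos1.2]) j1 (by
        have q1 : 1 - -g * H1 = 1 + g * H1 := by ring
        have q2 : al - -s * H1 = al + s * H1 := by ring
        have q3 : be - -t * H1 = be + t * H1 := by ring
        rw [q1, q2, q3]; exact e1)
    rw [neg_sq] at this
    have q1 : 1 - -g * -h = 1 - g * h := by ring
    have q2 : al - -s * -h = al - s * h := by ring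
    have q3 : be - -t * -h = be - t * h := by ring
    rw [q1, q2, q3] at this
    exact fin U1 V1 (hUs1 x hx) (hVt1 y hy) this

end Crest.Agent.R307.NP
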