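import Crest.Agent.R307.NP.Elim

/-!
Row 307 (S0471), flow route (helper243): the inequality `hii` of `pairStep_of_K` for the potential
`Ψ = ρ²/(3c²) (2c + φ)`.
-/

set_option autoImplicit false

namespace Crest.Agent.R307.NP

open Crest.Agent.R307.Flow Crest.Agent.R307.Elim

lemma diff_f {s t fs ft T : ℝ} (hfs : fs ^ 2 = 1 - s ^ 2) (hft : ft ^ 2 = 1 - t ^ 2)
    (pfs : 0 < fs) (pft : 0 < ft) (hT : T * (fs + ft) = s + t) : fs - ft = -(T * (s - t)) := by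
  have h : (fs - ft + T * (s - t)) * (fs + ft) = 0 := by
    have : (fs - ft + T * (s - t)) * (fs + ft) = fs ^ 2 - ft ^ 2 + (T * (fs + ft)) * (s - t) := by
      ring
    rw [this, hT, hfs, hft]; ring
  rcases mul_eq_zero.1 h with h | h
  · linarith
  · linarith

lemma le_of_sq_le_sq {a b : ℝ} (h : a ^ 2 ≤ b ^ 2) (hb : 0 ≤ b) : a ≤ b := by
  by_contra hc
  push Not at hc
  nlinarith

/-- core inequality -/
lemma hii_core {c s t fs ft f g d lam mu al be k Sig T m : ℝ} (hc : 0 < c)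
    (hlam : 0 < lam) (hmu : 0 < mu) (hsum : lam + mu = 1) (hg : g = lam * s + mu * t)
    (hd : d = s - t) (hd0 : 0 < d)
    (hfs : fs ^ 2 = 1 - s ^ 2) (hft : ft ^ 2 = 1 - t ^ 2) (hf : f ^ 2 = 1 - g ^ 2)
    (hf0 : 0 ≤ f) (pfs : 0 < fs) (pft : 0 < ft) (hT : T * (fs + ft) = s + t) (hm : f ≤ m)
    (hald : al = 1 - k * mu * d / 2 * (d + g * Sig))
    (hbed : be = 1 - k * lam * d / 2 * (d - g * Sig))
    (hB : 3 / (1 - g * (s + t) / 2) ≤ 2 * c * ((1 + T ^ 2) / (m + (lam * fs + mu * ft))) + 1 +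
      k / 2 * (2 * c * (fs + ft - g * Sig * T) + (fs ^ 2 + ft ^ 2 - g * Sig * (s + t)))) :
    lam * al * (2 * c * fs + fs ^ 2) + mu * be * (2 * c * ft + ft ^ 2) +
      3 * (lam * mu * d ^ 2) / (1 - g * (s + t) / 2) ≤ 2 * c * f + f ^ 2 := by
  have hz : 0 < lam * mu * d ^ 2 := by positivity
  have hdf := diff_f hfs hft pfs pft hT
  rw [← hd] at hdf
  set L := lam * fs + mu * ft with hL
  have hLp : 0 < L := by positivity
  have hmu' : mu = 1 - lam := by linarith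
  have w1 : f ^ 2 = lam * fs ^ 2 + mu * ft ^ 2 + lam * mu * d ^ 2 := by
    rw [hf, hfs, hft, hg, hd, hmu']; ring
  have w2 : f ^ 2 - L ^ 2 = lam * mu * d ^ 2 * (1 + T ^ 2) := by
    have : L ^ 2 = lam * fs ^ 2 + mu * ft ^ 2 - lam * mu * (fs - ft) ^ 2 := by
      rw [hL, hmu']; ring
    rw [w1, this, hdf]; ring
  have w3 : L ≤ f := by
    have h1 : L ^ 2 ≤ f ^ 2 := by
      have : 0 ≤ lam * mu * d ^ 2 * (1 + T ^ 2) := by positivity
      linarith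
    exact le_of_sq_le_sq h1 hf0
  have w4 : lam * mu * d ^ 2 * ((1 + T ^ 2) / (m + L)) ≤ f - L := by
    have hmL : 0 < m + L := by linarith
    rw [← mul_div_assoc, div_le_iff₀ hmL, ← w2]
    have := mul_le_mul_of_nonneg_left (show f + L ≤ m + L by linarith)
      (show 0 ≤ f - L by linarith)
    linarith
  have w5 : 2 * c * f + f ^ 2 - (lam * al * (2 * c * fs + fs ^ 2) +
      mu * be * (2 * c * ft + ft ^ 2)) = 2 * c * (f - L) + lam * mu * d ^ 2 * (1 +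
      k / 2 * (2 * c * (fs + ft - g * Sig * T) + (fs ^ 2 + ft ^ 2 - g * Sig * (s + t)))) := by
    have e1 : fs ^ 2 - ft ^ 2 = -((s + t) * d) := by rw [hfs, hft, hd]; ring
    have e2 : lam * (1 - al) * (2 * c * fs + fs ^ 2) + mu * (1 - be) * (2 * c * ft + ft ^ 2) =
        k / 2 * (lam * mu * d) * (d * ((2 * c * fs + fs ^ 2) + (2 * c * ft + ft ^ 2)) +
          g * Sig * (2 * c * (fs - ft) + (fs ^ 2 - ft ^ 2))) := by
      rw [hald, hbed]; ring
    have e3 : 2 * c * f + f ^ 2 - (lam * al * (2 * c * fs + fs ^ 2) +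
      mu * be * (2 * c * ft + ft ^ 2)) = 2 * c * (f - L) + (f ^ 2 - lam * fs ^ 2 - mu * ft ^ 2) +
        (lam * (1 - al) * (2 * c * fs + fs ^ 2) + mu * (1 - be) * (2 * c * ft + ft ^ 2)) := by
      rw [hL]; ring
    rw [e3, e2, hdf, e1, w1]
    ring
  have w6 : 3 * (lam * mu * d ^ 2) / (1 - g * (s + t) / 2) =
      lam * mu * d ^ 2 * (3 / (1 - g * (s + t) / 2)) := by ring
  rw [w6]
  have w7 := mul_le_mul_of_nonneg_left hB hz.le
  have w8 := mul_le_mul_of_nonneg_left w4 (show 0 ≤ 2 * c by linarith)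
  have w9 : lam * mu * d ^ 2 * (2 * c * ((1 + T ^ 2) / (m + L)) + 1 +
      k / 2 * (2 * c * (fs + ft - g * Sig * T) + (fs ^ 2 + ft ^ 2 - g * Sig * (s + t)))) =
      2 * c * (lam * mu * d ^ 2 * ((1 + T ^ 2) / (m + L))) + lam * mu * d ^ 2 * (1 +
      k / 2 * (2 * c * (fs + ft - g * Sig * T) + (fs ^ 2 + ft ^ 2 - g * Sig * (s + t)))) := by
    ring
  rw [w9] at w7
  linarith

/-- conversion to the potential `Ψ = ρ²/c + ρ²/(3c²)(φ - c)` -/
lemma hii_conv {ρ c s t fs ft f g d lam mu al be : ℝ} (hc : 0 < c)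
    (hlamd : lam = (1 + ρ) / 2) (hmud : mu = (1 - ρ) / 2) (hc2 : c ^ 2 = 1 - ρ ^ 2)
    (hg : g = lam * s + mu * t) (hd : d = s - t)
    (H : lam * al * (2 * c * fs + fs ^ 2) + mu * be * (2 * c * ft + ft ^ 2) +
      3 * (lam * mu * d ^ 2) / (1 - g * (s + t) / 2) ≤ 2 * c * f + f ^ 2) :
    lam * al * (fs * (ρ ^ 2 / c + ρ ^ 2 / (3 * c ^ 2) * (fs - c))) +
      mu * be * (ft * (ρ ^ 2 / c + ρ ^ 2 / (3 * c ^ 2) * (ft - c))) +
      (ρ * d / 2) ^ 2 / (1 - g ^ 2 + g * (ρ * d / 2)) ≤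
      f * (ρ ^ 2 / c + ρ ^ 2 / (3 * c ^ 2) * (f - c)) := by
  have e1 : ∀ x : ℝ, x * (ρ ^ 2 / c + ρ ^ 2 / (3 * c ^ 2) * (x - c)) =
      ρ ^ 2 / (3 * c ^ 2) * (2 * c * x + x ^ 2) := by
    intro x; field_simp; ring
  have e2 : 1 - g ^ 2 + g * (ρ * d / 2) = 1 - g * (s + t) / 2 := by
    have : g ^ 2 = g * (lam * s + mu * t) := by rw [← hg]; ring
    rw [this, hlamd, hmud, hd]; ring
  have e3 : (ρ * d / 2) ^ 2 / (1 - g * (s + t) / 2) =
      ρ ^ 2 / (3 * c ^ 2) * (3 * (lam * mu * d ^ 2) / (1 - g * (s + t) / 2)) := by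
    have : lam * mu = c ^ 2 / 4 := by rw [hlamd, hmud, hc2]; ring
    rw [this, ← mul_div_assoc]
    congr 1
    field_simp
    ring
  rw [e1, e1, e1, e2, e3]
  have h1 : 0 ≤ ρ ^ 2 / (3 * c ^ 2) := by positivity
  have h2 := mul_le_mul_of_nonneg_left H h1
  refine le_trans (le_of_eq ?_) h2
  ring

end Crest.Agent.R307.NP
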