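import Crest.Agent.Tools.KB

/-!
Row 307 (S0471), helper243: rational quantities with denominators `1+x₀²`, `1+x₁²` on top of `KB.Ex`,
with automatic lifting, and a box checker with per-leaf integer parameters.
-/

set_option autoImplicit false

namespace Crest.Agent.R307.NP

open Crest.Agent.KB

/-- a quantity `e / ((1+x₀²)^k0 (1+x₁²)^k1)`; `a0,a1,a2` are the homogeneous degrees of `e` -/
structure QE where
  e : Ex
  a0 : ℕ
  a1 : ℕ
  a2 : ℕ
  k0 : ℕ
  k1 : ℕ

namespace QE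

/-- real value -/
noncomputable def re (x : ℕ → ℝ) (q : QE) : ℝ :=
  q.e.val x (fun _ => 1) / ((1 + x 0 ^ 2) ^ q.k0 * (1 + x 1 ^ 2) ^ q.k1)

/-- the denominators -/
def dn (i : ℕ) : Ex := .add (.W i 2) (.X i 2)

/-- power of the denominator -/
def dnp (i : ℕ) : ℕ → Ex
  | 0 => .c 1
  | 1 => dn i
  | 2 => .mul (dn i) (dn i)
  | 3 => .mul (dn i) (.mul (dn i) (dn i))
  | n + 4 => .mul (dnp i 2) (dnp i (n + 2))

/-- multiply by `w^j` -/
def lw (i j : ℕ) (e : Ex) : Ex := match j with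
  | 0 => e
  | j => .mul (.W i j) e

/-- multiply by a power of the denominator -/
def ld (i j : ℕ) (e : Ex) : Ex := match j with
  | 0 => e
  | j => .mul (dnp i j) e

def C (n : ℤ) : QE := ⟨.c n, 0, 0, 0, 0, 0⟩

def mul (p q : QE) : QE := ⟨.mul p.e q.e, p.a0 + q.a0, p.a1 + q.a1, p.a2 + q.a2, p.k0 + q.k0, p.k1 + q.k1⟩

/-- raise to denominators exponents `k0 k1` -/
def up (p : QE) (k0 k1 : ℕ) : QE :=
  ⟨ld 1 (k1 - p.k1) (ld 0 (k0 - p.k0) p.e), p.a0 + 2 * (k0 - p.k0), p.a1 + 2 * (k1 - p.k1), p.a2, k0, k1⟩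

/-- raise to degrees -/
def ul (p : QE) (a0 a1 a2 : ℕ) : Ex := lw 2 (a2 - p.a2) (lw 1 (a1 - p.a1) (lw 0 (a0 - p.a0) p.e))

def comb (f : Ex → Ex → Ex) (p q : QE) : QE :=
  let p' := up p (Nat.max p.k0 q.k0) (Nat.max p.k1 q.k1)
  let q' := up q (Nat.max p.k0 q.k0) (Nat.max p.k1 q.k1)
  let a0 := Nat.max p'.a0 q'.a0
  let a1 := Nat.max p'.a1 q'.a1
  let a2 := Nat.max p'.a2 q'.a2
  ⟨f (ul p' a0 a1 a2) (ul q' a0 a1 a2), a0, a1, a2, Nat.max p.k0 q.k0, Nat.max p.k1 q.k1⟩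

def add (p q : QE) : QE := comb .add p q
def sub (p q : QE) : QE := comb .sub p q

instance : Add QE := ⟨add⟩
instance : Sub QE := ⟨sub⟩
instance : Mul QE := ⟨mul⟩

lemma val_dnp (x : ℕ → ℝ) (i n : ℕ) : (dnp i n).val x (fun _ => 1) = (1 + x i ^ 2) ^ n := by
  induction n using Nat.strong_induction_on with
  | _ n ih =>
    match n with
    | 0 => simp [dnp, Ex.val]
    | 1 => simp [dnp, dn, Ex.val]
    | 2 => simp only [dnp, dn, Ex.val]; simp; ring
    | 3 => simp only [dnp, dn, Ex.val]; simp; ring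
    | n + 4 =>
      rw [dnp, Ex.val, ih 2 (by omega), ih (n + 2) (by omega)]
      ring

lemma val_lw (x : ℕ → ℝ) (i j : ℕ) (e : Ex) : (lw i j e).val x (fun _ => 1) = e.val x (fun _ => 1) := by
  unfold lw
  split
  · rfl
  · simp [Ex.val]

lemma val_ld (x : ℕ → ℝ) (i j : ℕ) (e : Ex) :
    (ld i j e).val x (fun _ => 1) = (1 + x i ^ 2) ^ j * e.val x (fun _ => 1) := by
  unfold ld
  split
  · simp
  · simp only [Ex.val, val_dnp]

lemma val_ul (x : ℕ → ℝ) (p : QE) (a0 a1 a2 : ℕ) :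
    (ul p a0 a1 a2).val x (fun _ => 1) = p.e.val x (fun _ => 1) := by
  simp only [ul, val_lw]

lemma re_up (x : ℕ → ℝ) (p : QE) (k0 k1 : ℕ) (h0 : p.k0 ≤ k0) (h1 : p.k1 ≤ k1) :
    (up p k0 k1).re x = p.re x := by
  simp only [up, re, val_ld]
  have e0 : (1 + x 0 ^ 2) ^ k0 = (1 + x 0 ^ 2) ^ (k0 - p.k0) * (1 + x 0 ^ 2) ^ p.k0 := by
    rw [← pow_add]; congr 1; omega
  have e1 : (1 + x 1 ^ 2) ^ k1 = (1 + x 1 ^ 2) ^ (k1 - p.k1) * (1 + x 1 ^ 2) ^ p.k1 := by
    rw [← pow_add]; congr 1; omega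
  rw [e0, e1]
  have p0 : (0 : ℝ) < 1 + x 0 ^ 2 := by positivity
  have p1 : (0 : ℝ) < 1 + x 1 ^ 2 := by positivity
  field_simp

lemma re_mul (x : ℕ → ℝ) (p q : QE) : (p * q).re x = p.re x * q.re x := by
  change (mul p q).re x = _
  simp only [mul, re, Ex.val]
  rw [div_mul_div_comm]
  congr 1
  rw [pow_add, pow_add]; ring

lemma re_C (x : ℕ → ℝ) (n : ℤ) : (C n).re x = n := by
  simp [C, re, Ex.val]

lemma re_add (x : ℕ → ℝ) (p q : QE) : (p + q).re x = p.re x + q.re x := by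
  have e : (p + q).re x = ((up p (Nat.max p.k0 q.k0) (Nat.max p.k1 q.k1)).e.val x (fun _ => 1) +
      (up q (Nat.max p.k0 q.k0) (Nat.max p.k1 q.k1)).e.val x (fun _ => 1)) /
      ((1 + x 0 ^ 2) ^ (Nat.max p.k0 q.k0) * (1 + x 1 ^ 2) ^ (Nat.max p.k1 q.k1)) := by
    change (comb .add p q).re x = _
    simp only [comb, re, Ex.val, val_ul]
  rw [e, add_div, ← re_up x p (Nat.max p.k0 q.k0) (Nat.max p.k1 q.k1) (Nat.le_max_left _ _)
    (Nat.le_max_left _ _), ← re_up x q (Nat.max p.k0 q.k0) (Nat.max p.k1 q.k1)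
    (Nat.le_max_right _ _) (Nat.le_max_right _ _)]
  rfl

lemma re_sub (x : ℕ → ℝ) (p q : QE) : (p - q).re x = p.re x - q.re x := by
  have e : (p - q).re x = ((up p (Nat.max p.k0 q.k0) (Nat.max p.k1 q.k1)).e.val x (fun _ => 1) -
      (up q (Nat.max p.k0 q.k0) (Nat.max p.k1 q.k1)).e.val x (fun _ => 1)) /
      ((1 + x 0 ^ 2) ^ (Nat.max p.k0 q.k0) * (1 + x 1 ^ 2) ^ (Nat.max p.k1 q.k1)) := by
    change (comb .sub p q).re x = _
    simp only [comb, re, Ex.val, val_ul]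
  rw [e, sub_div, ← re_up x p (Nat.max p.k0 q.k0) (Nat.max p.k1 q.k1) (Nat.le_max_left _ _)
    (Nat.le_max_left _ _), ← re_up x q (Nat.max p.k0 q.k0) (Nat.max p.k1 q.k1)
    (Nat.le_max_right _ _) (Nat.le_max_right _ _)]
  rfl

lemma re_nonneg {x : ℕ → ℝ} {q : QE} (h : 0 ≤ q.e.val x (fun _ => 1)) : 0 ≤ q.re x := by
  unfold re; positivity

end QE

/-- check of one quantity on a box (3 variables); packing parameters are computed -/
noncomputable def okE (s : ℕ) (M : List ℕ) (b : Box) (q : QE) : Bool :=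
  let Xl := [q.a0 + 1, q.a1 + 1, q.a2 + 1]
  let w := Nat.log2 (q.e.nrm (fun i => M.getD i 0) s) + 2
  statE 3 w s Xl M q.e && leafE w s (Hm w (sgl Xl 3)) Xl b q.e

lemma okE_sound {s : ℕ} {M : List ℕ} {b : Box} {q : QE} (hb0 : b.length = 3)
    (hb : boxWf M b 3 = true) (h : okE s M b q = true) {x : ℕ → ℝ} (hx : InBox 3 s b x) :
    0 ≤ q.e.val x (fun _ => 1) := by
  simp only [okE, Bool.and_eq_true] at h
  obtain ⟨h1, h2⟩ := h
  have hc := leafE_sound 3 _ s _ M (by omega) b hb0 hb q.e h1 h2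
  simp only [statE, Bool.and_eq_true, List.all_eq_true, List.mem_range] at h1
  obtain ⟨⟨hv, hd⟩, -⟩ := h1
  refine val_nonneg_closed 3 s b hb0 q.e hv ?_ (fun i hi => (boxWf_sound M b 3 hb i hi).1) hc x hx
  intro i hi
  have := hd i hi
  cases h3 : q.e.hd i with
  | none => simp [h3] at this
  | some d => exact ⟨d, rfl⟩

/-- trees with leaves carrying parameters -/
inductive TP (α : Type) where
  | leaf (p : α)
  | node (i : ℕ) (l r : TP α)

/-- the checker -/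
noncomputable def chkT {α : Type} (s : ℕ) (M : List ℕ) (gen : α → List QE) : TP α → Box → Bool
  | .leaf p, b => boxWf M b 3 && (gen p).all (fun q => okE s M b q)
  | .node i l r, b =>
      chkT s M gen l (Box.setc b i (ba b i, (ba b i + bb b i) / 2)) &&
        chkT s M gen r (Box.setc b i ((ba b i + bb b i) / 2, bb b i))

theorem chkT_sound {α : Type} {s : ℕ} {M : List ℕ} {gen : α → List QE} {x : ℕ → ℝ} (tr : TP α) :
    ∀ b : Box, b.length = 3 → chkT s M gen tr b = true → InBox 3 s b x →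
      ∃ p : α, ∀ q ∈ gen p, 0 ≤ q.re x := by
  induction tr with
  | leaf p =>
    intro b hbl h hx
    simp only [chkT, Bool.and_eq_true, List.all_eq_true] at h
    exact ⟨p, fun q hq => QE.re_nonneg (okE_sound hbl h.1 (h.2 q hq) hx)⟩
  | node i l r ihl ihr =>
    intro b hbl h hx
    simp only [chkT, Bool.and_eq_true] at h
    by_cases hi : i < 3
    · have hxi := hx i hi
      rcases le_total (x i * 2 ^ s) (((ba b i + bb b i) / 2 : ℤ) : ℝ) with hm | hm
      · exact ihl _ (by rw [Box.length_setc, hbl]) h.1 (InBox_setc hx i _ ⟨hxi.1, hm⟩)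
      · exact ihr _ (by rw [Box.length_setc, hbl]) h.2 (InBox_setc hx i _ ⟨hm, hxi.2⟩)
    · have hb2 : ∀ p, Box.setc b i p = b := by
        intro p
        apply List.ext_getElem (by rw [Box.length_setc])
        intro j h1 h2
        have h3 := Box.getD_setc b i j p
        rw [List.getD_eq_getElem _ _ h1, List.getD_eq_getElem _ _ h2] at h3
        rw [h3, if_neg]
        rintro ⟨rfl, h4⟩
        omega
      rw [hb2] at h
      exact ihl b hbl h.1 hx

end Crest.Agent.R307.NP
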